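import Vale.Agent.P085.Bdl.B1

set_option autoImplicit false

namespace Vale.Agent.Results.P085.GeneratorProblem

open Vale.Agent.P085

/-- Every type `II_1` factor on a separable Hilbert space is singly generated. -/
theorem result {H : Type*} [NormedAddCommGroup H] [InnerProductSpace ℂ H] [CompleteSpace H]
    [TopologicalSpace.SeparableSpace H] (M : VonNeumannAlgebra H) (hM : IsII1Factor M) :
    IsSinglyGenerated M :=
  isSinglyGenerated_of_isII1Factor M hM

end Vale.Agent.Results.P085.GeneratorProblem
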